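import Vale.Agent.P235.ST.H526.TGrid
import Vale.Agent.P235.R2.RED.Bags

/-!
P235, [TREE] (helper526): the tree world of a family of bags (after helper386's path version).
-/

set_option autoImplicit false
set_option linter.all false

namespace Vale.Agent.P235.STO.H526

open SimpleGraph Vale.Agent.P235 Vale.Agent.P235.Red Finset

/-- heights of the common vertices of the bag of `t` and the bag of its parent -/
def keep {V : Type} (h : V → ℕ) (B : ℕ → Set V) (par : ℕ → ℕ) (t : ℕ) : Set ℕ :=
  {a | ∃ z, z ∈ B t ∧ z ∈ B (par t) ∧ h z = a}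

section phi

variable {V : Type} {h : V → ℕ} {B : ℕ → Set V} {N T : ℕ} {par : ℕ → ℕ}
  {hpar : ∀ t, t ≠ 0 → par t < t}

/-- distance of `x` to the point of height `a` of column `k` -/
noncomputable def phi (h : V → ℕ) (B : ℕ → Set V) (N : ℕ) (x : V) (k a : ℕ) : ℕ :=
  sInf {n | ∃ v ∈ B k, n = dN h B N x v + nd (h v) a}

theorem phi_le (x : V) {k a : ℕ} {v : V} (hv : v ∈ B k) :
    phi h B N x k a ≤ dN h B N x v + nd (h v) a := Nat.sInf_le ⟨v, hv, rfl⟩

theorem phi_mem (x : V) {k : ℕ} (hk : (B k).Nonempty) (a : ℕ) :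
    ∃ v ∈ B k, phi h B N x k a = dN h B N x v + nd (h v) a := by
  obtain ⟨v, hv⟩ := hk
  have h1 : ({n | ∃ v ∈ B k, n = dN h B N x v + nd (h v) a} : Set ℕ).Nonempty :=
    ⟨_, v, hv, rfl⟩
  exact Nat.sInf_mem h1

theorem phi_lip (x : V) {k : ℕ} (hk : (B k).Nonempty) (a b : ℕ) :
    phi h B N x k b ≤ phi h B N x k a + nd a b := by
  obtain ⟨v, hv, h1⟩ := phi_mem (h := h) (N := N) x hk a
  have h2 := phi_le (h := h) (N := N) (a := b) x hv
  have h3 : nd (h v) b ≤ nd (h v) a + nd a b := by unfold nd; omega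
  omega

theorem phi_at (hc : (bagGraph B N).Connected) (x : V) {k : ℕ} (hk : k ≤ N) {z : V}
    (hz : z ∈ B k) : phi h B N x k (h z) = dN h B N x z := by
  apply le_antisymm
  · have := phi_le (h := h) (N := N) (a := h z) x hz
    have h2 : nd (h z) (h z) = 0 := by unfold nd; omega
    omega
  · obtain ⟨v, hv, h1⟩ := phi_mem (h := h) (N := N) x ⟨z, hz⟩ (h z)
    rw [h1]
    exact dN_lip hc x hk hv hz

theorem phi_keep (hpar : ∀ t, t ≠ 0 → par t < t) (hc : (bagGraph B N).Connected) (x : V) {k : ℕ}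
    (h0 : k ≠ 0) (hk : k ≤ N) {a : ℕ} (ha : a ∈ keep h B par k) :
    phi h B N x k a = phi h B N x (par k) a := by
  obtain ⟨z, h1, h2, rfl⟩ := ha
  have h3 := hpar k h0
  rw [phi_at hc x hk h1, phi_at hc x (by omega) h2]

theorem phi_rep (hc : (bagGraph B N).Connected) (x : V) (a : ℕ) : ∀ k ≤ N,
    phi h B N x (col par hpar (keep h B par) k a) a = phi h B N x k a := by
  intro k
  induction k using Nat.strong_induction_on with
  | _ k ih =>
    intro hk
    rcases Nat.eq_zero_or_pos k with h0 | h0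
    · rw [h0, col_zero]
    · by_cases h1 : a ∈ keep h B par k
      · have h2 := hpar k h0.ne'
        rw [col_mem h0.ne' h1, ih _ h2 (by omega), phi_keep hpar hc x h0.ne' hk h1]
      · rw [col_not h1]

/-- lower bound along walks -/
theorem phi_walk (hc : (bagGraph B N).Connected) (hne : ∀ k ≤ N, (B k).Nonempty) (x : V) :
    ∀ {a b : GV par hpar (keep h B par) N T} (w : (GG par hpar (keep h B par) N T).Walk a b),
      phi h B N x b.1.1 b.1.2 ≤ phi h B N x a.1.1 a.1.2 + w.length := by
  intro a b w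
  induction w with
  | nil => simp
  | @cons a c b hac p ih =>
    obtain ⟨h1, m, hm, hma, hmc⟩ := id hac
    have e1 : phi h B N x a.1.1 a.1.2 = phi h B N x m a.1.2 := by
      rw [← phi_rep (par := par) (hpar := hpar) hc x _ m hm, hma]
    have e2 : phi h B N x c.1.1 c.1.2 = phi h B N x m c.1.2 := by
      rw [← phi_rep (par := par) (hpar := hpar) hc x _ m hm, hmc]
    have h2 := phi_lip (h := h) (N := N) x (hne m hm) a.1.2 c.1.2
    have h3 : nd a.1.2 c.1.2 = 1 := by
      unfold nd
      rcases h1 with h1 | h1 <;> omega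
    have h4 : (Walk.cons hac p).length = p.length + 1 := Walk.length_cons _ _
    have h5 : phi h B N x b.1.1 b.1.2 ≤ phi h B N x a.1.1 a.1.2 + (p.length + 1) := by omega
    exact h5.trans (by rw [← h4])

end phi

section main

variable {V : Type} {h : V → ℕ} {B : ℕ → Set V} {N : ℕ} {par : ℕ → ℕ}

/-- a vertex of the bag of `i` lies in all bags up to its top bag -/
theorem mem_up {v : V} {r : ℕ} (hpar : ∀ t, t ≠ 0 → par t < t)
    (hr : ∀ i ≤ N, v ∈ B i → i ≠ r → i ≠ 0 ∧ v ∈ B (par i)) :
    ∀ i ≤ N, v ∈ B i → Anc par r i ∧ ∀ j, Anc par r j → Anc par j i → v ∈ B j := by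
  intro i
  induction i using Nat.strong_induction_on with
  | _ i ih =>
    intro hi hv
    by_cases h1 : i = r
    · subst h1
      refine ⟨Anc.refl _, fun j h2 h3 => ?_⟩
      rw [Anc.antisymm hpar h3 h2]
      exact hv
    · obtain ⟨h2, h3⟩ := hr i hi hv h1
      have h4 := hpar i h2
      obtain ⟨h5, h6⟩ := ih (par i) h4 (by omega) h3
      refine ⟨Anc.step h2 h5, fun j h7 h8 => ?_⟩
      cases h8 with
      | refl => exact hv
      | step _ h9 => exact h6 j h7 h9

/-- neighbouring bags meet -/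
theorem keep_nonempty (hpar : ∀ t, t ≠ 0 → par t < t) (hc : (bagGraph B N).Connected)
    {r : V → ℕ} (hrB : ∀ v, v ∈ B (r v))
    (hr : ∀ v, ∀ i ≤ N, v ∈ B i → i ≠ r v → i ≠ 0 ∧ v ∈ B (par i))
    (hne : ∀ k ≤ N, (B k).Nonempty) {t : ℕ} (h0 : t ≠ 0) (ht : t ≤ N) :
    ∃ z, z ∈ B t ∧ z ∈ B (par t) := by
  by_contra hcon
  push Not at hcon
  have hpt := hpar t h0
  -- above `t` strictly and in a bag below `t`: contradiction
  have key : ∀ v : V, ∀ m ≤ N, v ∈ B m → Anc par t m → Anc par t (r v) := by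
    intro v m hm hv htm
    obtain ⟨h1, h2⟩ := mem_up hpar (hr v) m hm hv
    rcases h1.chain htm with h | h
    · by_cases h3 : r v = t
      · rw [h3]; exact Anc.refl t
      · exfalso
        have h4 : v ∈ B t := h2 t h htm
        have h5 : Anc par (r v) (par t) := by
          cases h with
          | refl => exact absurd rfl h3
          | step _ h6 => exact h6
        exact hcon v h4 (h2 _ h5 ((Anc.step h0 (Anc.refl _)).trans htm))
    · exact h
  have hstep : ∀ {a b : V} (w : (bagGraph B N).Walk a b), Anc par t (r a) → Anc par t (r b) := by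
    intro a b w
    induction w with
    | nil => exact id
    | @cons a c b hac p ih =>
      intro h1
      obtain ⟨-, m, hm, ham, hcm⟩ := hac
      refine ih (key c m hm hcm ?_)
      exact h1.trans (mem_up hpar (hr a) m hm ham).1
  obtain ⟨x, hx⟩ := hne t ht
  obtain ⟨y, hy⟩ := hne (par t) (by omega)
  obtain ⟨w⟩ := hc x y
  have h1 := hstep w (key x t ht hx (Anc.refl t))
  have h2 := (mem_up hpar (hr y) (par t) (by omega) hy).1
  have h3 := (h1.trans h2).le hpar
  omega

/-- **the tree world of bags** -/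
theorem exists_tworld [Finite V] (h : V → ℕ) (B : ℕ → Set V) (par : ℕ → ℕ) (N : ℕ)
    (hpar : ∀ t, t ≠ 0 → par t < t) (hc : (bagGraph B N).Connected)
    (sub : ∀ v, ∃ r ≤ N, v ∈ B r ∧ ∀ i ≤ N, v ∈ B i → i ≠ r → i ≠ 0 ∧ v ∈ B (par i))
    (hne : ∀ k ≤ N, (B k).Nonempty) :
    ∃ (V' : Type) (_ : Fintype V') (ι : Type) (_ : PartialOrder ι) (W : TWorld V' ι)
      (f : V → V'),
      (∀ i ≤ N, ∀ x ∈ B i, ∀ y ∈ B i, W.G.dist (f x) (f y) ≤ nd (h x) (h y)) ∧
      ∀ x y, dN h B N x y ≤ W.G.dist (f x) (f y) := by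
  classical
  choose r hrN hrB hr using sub
  obtain ⟨T, hT⟩ : ∃ T, ∀ v, h v ≤ T := by
    obtain ⟨T, hT⟩ := (Set.finite_range h).bddAbove
    exact ⟨T, fun v => hT ⟨v, rfl⟩⟩
  have hJ : ∀ t, t ≠ 0 → t ≤ N → ∃ a ∈ keep h B par t, a ≤ T := by
    intro t h0 ht
    obtain ⟨z, h1, h2⟩ := keep_nonempty hpar hc hrB hr hne h0 ht
    exact ⟨h z, ⟨z, h1, h2, rfl⟩, hT z⟩
  let f : V → GV par hpar (keep h B par) N T := fun x =>
    rep par hpar (keep h B par) (r x) (h x) (hrN x) (hT x)
  have hin : ∀ x, ∀ i ≤ N, x ∈ B i →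
      col par hpar (keep h B par) i (h x) = col par hpar (keep h B par) (r x) (h x) := by
    intro x i
    induction i using Nat.strong_induction_on with
    | _ i ih =>
      intro hi hx
      by_cases h1 : i = r x
      · rw [h1]
      · obtain ⟨h2, h3⟩ := hr x i hi hx h1
        have h4 := hpar i h2
        rw [col_mem h2 (show h x ∈ keep h B par i from ⟨x, hx, h3, rfl⟩)]
        exact ih (par i) h4 (by omega) h3
  refine ⟨GV par hpar (keep h B par) N T, inferInstance, Node par hpar N, inferInstance,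
    tworld par hpar (keep h B par) N T hJ, f, ?_, ?_⟩
  · intro i hi x hx y hy
    have key : ∀ x y : V, x ∈ B i → y ∈ B i → h x ≤ h y →
        (GG par hpar (keep h B par) N T).dist (f x) (f y) ≤ nd (h x) (h y) := by
      intro x y hx hy hxy
      obtain ⟨q, h1, -⟩ := line_walk hi (f x) (f y) (hin x i hi hx) (hin y i hi hy) hxy
      refine (SimpleGraph.dist_le q).trans ?_
      rw [h1]
      show h y - h x ≤ nd (h x) (h y)
      unfold nd
      omega
    show (GG par hpar (keep h B par) N T).dist (f x) (f y) ≤ nd (h x) (h y)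
    rcases le_total (h x) (h y) with h1 | h1
    · exact key x y hx hy h1
    · rw [SimpleGraph.dist_comm, nd_comm]
      exact key y x hy hx h1
  · intro x y
    obtain ⟨w, hw⟩ := (gg_conn (par := par) (hpar := hpar) hJ).exists_walk_length_eq_dist (f x) (f y)
    have h1 := phi_walk hc hne x w
    have e1 : phi h B N x (f x).1.1 (f x).1.2 = 0 := by
      show phi h B N x (col par hpar (keep h B par) (r x) (h x)) (h x) = 0
      rw [phi_rep hc x _ _ (hrN x), phi_at hc x (hrN x) (hrB x), dN_self]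
    have e2 : phi h B N x (f y).1.1 (f y).1.2 = dN h B N x y := by
      show phi h B N x (col par hpar (keep h B par) (r y) (h y)) (h y) = _
      rw [phi_rep hc x _ _ (hrN y), phi_at hc x (hrN y) (hrB y)]
    show _ ≤ (GG par hpar (keep h B par) N T).dist (f x) (f y)
    omega

end main

end Vale.Agent.P235.STO.H526
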