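import Vale.Agent.P235.ST.H234.TDefs

/-! P235, (ST) O(1), tree version (helper526): the world of columns hung on a rooted tree.
Nodes `0, …, N`, parent `par`, heights `0, …, T`; `(t, a)` and `(par t, a)` are the same vertex if
`a ∈ J t`. -/

set_option autoImplicit false
set_option linter.all false

namespace Vale.Agent.P235.STO.H526

open SimpleGraph

/-- `Anc par i t`: `i` is an ancestor of `t`, or `t` itself -/
inductive Anc (par : ℕ → ℕ) : ℕ → ℕ → Prop
  | refl (t : ℕ) : Anc par t t
  | step {i t : ℕ} : t ≠ 0 → Anc par i (par t) → Anc par i t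

variable {par : ℕ → ℕ}

theorem Anc.le (hpar : ∀ t, t ≠ 0 → par t < t) {i t : ℕ} (h : Anc par i t) : i ≤ t := by
  induction h with
  | refl => exact le_rfl
  | step h0 _ ih => exact ih.trans (hpar _ h0).le

theorem Anc.trans {i j t : ℕ} (h : Anc par i j) (h' : Anc par j t) : Anc par i t := by
  induction h' with
  | refl => exact h
  | step h0 _ ih => exact Anc.step h0 ih

theorem Anc.antisymm (hpar : ∀ t, t ≠ 0 → par t < t) {i j : ℕ} (h : Anc par i j)
    (h' : Anc par j i) : i = j := le_antisymm (h.le hpar) (h'.le hpar)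

theorem Anc.chain {i j t : ℕ} (h : Anc par i t) (h' : Anc par j t) :
    Anc par i j ∨ Anc par j i := by
  induction h with
  | refl => exact Or.inr h'
  | @step t h0 h1 ih =>
    cases h' with
    | refl => exact Or.inl (Anc.step h0 h1)
    | step h2 h3 => exact ih h3

theorem Anc.zero (hpar : ∀ t, t ≠ 0 → par t < t) (t : ℕ) : Anc par 0 t := by
  induction t using Nat.strong_induction_on with
  | _ t ih =>
    rcases Nat.eq_zero_or_pos t with h | h
    · rw [h]; exact Anc.refl 0
    · exact Anc.step h.ne' (ih _ (hpar t h.ne'))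

theorem Anc.child {i t : ℕ} (h : Anc par i t) (hne : i ≠ t) :
    ∃ c, c ≠ 0 ∧ par c = i ∧ Anc par c t := by
  induction h with
  | refl => exact absurd rfl hne
  | @step t h0 h1 ih =>
    by_cases h2 : i = par t
    · exact ⟨t, h0, h2.symm, Anc.refl t⟩
    · obtain ⟨c, h3, h4, h5⟩ := ih h2
      exact ⟨c, h3, h4, Anc.step h0 h5⟩

open Classical in
/-- top node of the run of nodes which contains `(t, a)` -/
noncomputable def col (par : ℕ → ℕ) (hpar : ∀ t, t ≠ 0 → par t < t) (J : ℕ → Set ℕ)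
    (t a : ℕ) : ℕ :=
  if h : t ≠ 0 ∧ a ∈ J t then col par hpar J (par t) a else t
termination_by t
decreasing_by exact hpar t h.1

variable {hpar : ∀ t, t ≠ 0 → par t < t} {J : ℕ → Set ℕ}

theorem col_mem {t a : ℕ} (h0 : t ≠ 0) (h : a ∈ J t) :
    col par hpar J t a = col par hpar J (par t) a := by
  rw [col, dif_pos ⟨h0, h⟩]

theorem col_not {t a : ℕ} (h : a ∉ J t) : col par hpar J t a = t := by
  rw [col, dif_neg fun h' => h h'.2]

theorem col_zero (a : ℕ) : col par hpar J 0 a = 0 := by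
  rw [col, dif_neg fun h' => h'.1 rfl]

theorem col_anc (t a : ℕ) : Anc par (col par hpar J t a) t := by
  induction t using Nat.strong_induction_on with
  | _ t ih =>
    rcases Nat.eq_zero_or_pos t with h | h
    · rw [h, col_zero]; exact Anc.refl 0
    · by_cases ha : a ∈ J t
      · rw [col_mem h.ne' ha]
        exact Anc.step h.ne' (ih _ (hpar t h.ne'))
      · rw [col_not ha]; exact Anc.refl t

theorem col_le (t a : ℕ) : col par hpar J t a ≤ t := (col_anc t a).le hpar

theorem col_between {k j a : ℕ} (h2 : Anc par k j) :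
    Anc par (col par hpar J j a) k → col par hpar J k a = col par hpar J j a := by
  induction h2 with
  | refl => intro _; rfl
  | @step t h0 h1 ih =>
    intro h3
    by_cases ha : a ∈ J t
    · rw [col_mem h0 ha] at h3 ⊢
      exact ih h3
    · rw [col_not ha] at h3
      exfalso
      have e1 := h3.le hpar
      have e2 := h1.le hpar
      have e3 := hpar t h0
      omega

theorem col_idem (t a : ℕ) : col par hpar J (col par hpar J t a) a = col par hpar J t a :=
  col_between (col_anc t a) (Anc.refl _)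

/-- the vertices -/
def GV (par : ℕ → ℕ) (hpar : ∀ t, t ≠ 0 → par t < t) (J : ℕ → Set ℕ) (N T : ℕ) : Type :=
  {p : ℕ × ℕ // p.1 ≤ N ∧ p.2 ≤ T ∧ col par hpar J p.1 p.2 = p.1}

noncomputable instance (N T : ℕ) : Fintype (GV par hpar J N T) := by
  classical
  have : Finite (GV par hpar J N T) := by
    refine Finite.of_injective (β := Fin (N + 1) × Fin (T + 1))
      (fun x => (⟨x.1.1, Nat.lt_succ_of_le x.2.1⟩, ⟨x.1.2, Nat.lt_succ_of_le x.2.2.1⟩)) ?_
    intro x y hxy
    simp only [Prod.mk.injEq, Fin.mk.injEq] at hxy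
    exact Subtype.ext (Prod.ext hxy.1 hxy.2)
  exact Fintype.ofFinite _

variable {N T : ℕ}

/-- the vertex at height `a` of column `k` -/
noncomputable def rep (par : ℕ → ℕ) (hpar : ∀ t, t ≠ 0 → par t < t) (J : ℕ → Set ℕ) {N T : ℕ}
    (k a : ℕ) (hk : k ≤ N) (ha : a ≤ T) : GV par hpar J N T :=
  ⟨(col par hpar J k a, a), (col_le k a).trans hk, ha, col_idem k a⟩

/-- the graph -/
def GG (par : ℕ → ℕ) (hpar : ∀ t, t ≠ 0 → par t < t) (J : ℕ → Set ℕ) (N T : ℕ) :
    SimpleGraph (GV par hpar J N T) where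
  Adj x y := (x.1.2 + 1 = y.1.2 ∨ y.1.2 + 1 = x.1.2) ∧
    ∃ k ≤ N, col par hpar J k x.1.2 = x.1.1 ∧ col par hpar J k y.1.2 = y.1.1
  symm := ⟨fun _ _ h => ⟨h.1.symm, h.2.imp fun _ h => ⟨h.1, h.2.2, h.2.1⟩⟩⟩
  loopless := ⟨fun _ h => by rcases h.1 with h | h <;> omega⟩

theorem rep_adj {k a : ℕ} (hk : k ≤ N) (ha : a + 1 ≤ T) :
    (GG par hpar J N T).Adj (rep par hpar J k a hk (by omega)) (rep par hpar J k (a + 1) hk ha) :=
  ⟨Or.inl rfl, k, hk, rfl, rfl⟩

/-- the walk up column `k` -/
theorem rep_walk {k : ℕ} (hk : k ≤ N) (a : ℕ) : ∀ (n : ℕ) (ha : a + n ≤ T),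
    ∃ q : (GG par hpar J N T).Walk (rep par hpar J k a hk (by omega))
      (rep par hpar J k (a + n) hk ha), q.length = n ∧
      ∀ z ∈ q.support, col par hpar J k z.1.2 = z.1.1 := by
  intro n
  induction n with
  | zero =>
    intro ha
    refine ⟨Walk.nil, rfl, fun z hz => ?_⟩
    rw [Walk.support_nil, List.mem_singleton] at hz
    rw [hz]
    rfl
  | succ n ih =>
    intro ha
    obtain ⟨q, h1, h2⟩ := ih (by omega)
    refine ⟨q.concat (rep_adj hk ha), by rw [Walk.length_concat, h1], fun z hz => ?_⟩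
    rw [Walk.support_concat, List.mem_append, List.mem_singleton] at hz
    rcases hz with hz | hz
    · exact h2 z hz
    · rw [hz]
      rfl

theorem eq_rep {k : ℕ} (hk : k ≤ N) (z : GV par hpar J N T)
    (h : col par hpar J k z.1.2 = z.1.1) :
    z = rep par hpar J k z.1.2 hk z.2.2.1 := Subtype.ext (Prod.ext h.symm rfl)

theorem line_walk {k : ℕ} (hk : k ≤ N) (x y : GV par hpar J N T)
    (hx : col par hpar J k x.1.2 = x.1.1)
    (hy : col par hpar J k y.1.2 = y.1.1) (h : x.1.2 ≤ y.1.2) :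
    ∃ q : (GG par hpar J N T).Walk x y, q.length = y.1.2 - x.1.2 ∧
      ∀ z ∈ q.support, col par hpar J k z.1.2 = z.1.1 := by
  obtain ⟨n, hn⟩ := Nat.exists_eq_add_of_le h
  have h1 := y.2.2.1
  rw [hn] at h1
  obtain ⟨q, h2, h3⟩ := rep_walk (par := par) (hpar := hpar) (J := J) (T := T) hk x.1.2 n h1
  have e1 := eq_rep hk x hx
  have e2 : y = rep par hpar J k (x.1.2 + n) hk h1 := by
    refine Subtype.ext (Prod.ext ?_ hn)
    show y.1.1 = col par hpar J k (x.1.2 + n)
    rw [← hn, hy]
  refine ⟨q.copy e1.symm e2.symm, ?_, ?_⟩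
  · rw [Walk.length_copy, h2]
    omega
  · rw [Walk.support_copy]
    exact h3

/-- entering the subtree of `i` -/
theorem enter {i : ℕ} {a b : GV par hpar J N T} (q : (GG par hpar J N T).Walk a b)
    (hb : Anc par i b.1.1) (ha : ¬ Anc par i a.1.1) :
    ∃ z ∈ q.support, ¬ Anc par i z.1.1 ∧ col par hpar J i z.1.2 = z.1.1 := by
  induction q with
  | nil => exact absurd hb ha
  | @cons x y z hxy p ih =>
    by_cases hy : Anc par i y.1.1
    · obtain ⟨-, m, hm, h1, h2⟩ := hxy
      refine ⟨x, Walk.start_mem_support _, ha, ?_⟩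
      have e1 : Anc par x.1.1 m := by rw [← h1]; exact col_anc m _
      have e2 : Anc par y.1.1 m := by rw [← h2]; exact col_anc m _
      have e3 : Anc par i m := hy.trans e2
      rcases e3.chain e1 with h | h
      · exact absurd h ha
      · rw [← h1] at h ⊢
        exact col_between e3 h
    · obtain ⟨w, hw, h1, h2⟩ := ih hb hy
      refine ⟨w, ?_, h1, h2⟩
      rw [Walk.support_cons]
      exact List.mem_cons_of_mem _ hw

/-- meet of two vertices -/
theorem exists_meet (a b : GV par hpar J N T) :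
    ∃ i, Anc par i a.1.1 ∧ Anc par i b.1.1 ∧ ∀ q : (GG par hpar J N T).Walk a b,
      ∃ z ∈ q.support, col par hpar J i z.1.2 = z.1.1 := by
  classical
  have hfin : {j | Anc par j a.1.1 ∧ Anc par j b.1.1}.Finite :=
    (Set.finite_Iic a.1.1).subset fun j hj => hj.1.le hpar
  obtain ⟨i, hi, hmax⟩ := hfin.exists_maximal ⟨0, Anc.zero hpar _, Anc.zero hpar _⟩
  refine ⟨i, hi.1, hi.2, fun q => ?_⟩
  by_cases h1 : i = a.1.1
  · exact ⟨a, Walk.start_mem_support _, by rw [h1]; exact a.2.2.2⟩
  · obtain ⟨c, hc0, hcp, hca⟩ := hi.1.child h1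
    have hcb : ¬ Anc par c b.1.1 := by
      intro h
      have h2 := hpar c hc0
      have h3 : i ≤ c := by omega
      have h4 := hmax (show c ∈ {j | Anc par j a.1.1 ∧ Anc par j b.1.1} from ⟨hca, h⟩) h3
      omega
    obtain ⟨z, hz, h2, h3⟩ := enter q.reverse hca hcb
    rw [Walk.support_reverse, List.mem_reverse] at hz
    refine ⟨z, hz, ?_⟩
    by_cases h4 : z.1.2 ∈ J c
    · rw [col_mem hc0 h4, hcp] at h3
      exact h3
    · rw [col_not h4] at h3
      rw [← h3] at h2
      exact absurd (Anc.refl c) h2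

theorem gg_conn (hJ : ∀ t, t ≠ 0 → t ≤ N → ∃ a ∈ J t, a ≤ T) : (GG par hpar J N T).Connected := by
  have base : ∀ k (hk : k ≤ N) a b (ha : a ≤ T) (hb : b ≤ T),
      (GG par hpar J N T).Reachable (rep par hpar J k a hk ha) (rep par hpar J k b hk hb) := by
    intro k hk a b ha hb
    rcases le_total a b with h | h
    · obtain ⟨q, -⟩ := line_walk hk (rep par hpar J k a hk ha) (rep par hpar J k b hk hb) rfl rfl h
      exact ⟨q⟩
    · obtain ⟨q, -⟩ := line_walk hk (rep par hpar J k b hk hb) (rep par hpar J k a hk ha) rfl rfl h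
      exact ⟨q.reverse⟩
  have key : ∀ k (hk : k ≤ N) a (ha : a ≤ T), (GG par hpar J N T).Reachable
      (rep par hpar J 0 0 (Nat.zero_le _) (Nat.zero_le _)) (rep par hpar J k a hk ha) := by
    intro k
    induction k using Nat.strong_induction_on with
    | _ k ih =>
      intro hk a ha
      rcases Nat.eq_zero_or_pos k with h | h
      · subst h
        exact base 0 hk 0 a _ ha
      · obtain ⟨b, hb, hbT⟩ := hJ k h.ne' hk
        have h1 := hpar k h.ne'
        have h2 := ih (par k) h1 (by omega) b hbT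
        have e : rep par hpar J k b hk hbT = rep par hpar J (par k) b (by omega) hbT :=
          Subtype.ext (Prod.ext (col_mem h.ne' hb) rfl)
        rw [← e] at h2
        exact h2.trans (base k hk b a hbT ha)
  rw [SimpleGraph.connected_iff]
  refine ⟨fun x y => ?_, ⟨rep par hpar J 0 0 (Nat.zero_le _) (Nat.zero_le _)⟩⟩
  have hx := key x.1.1 x.2.1 x.1.2 x.2.2.1
  have hy := key y.1.1 y.2.1 y.1.2 y.2.2.1
  rw [← eq_rep x.2.1 x x.2.2.2] at hx
  rw [← eq_rep y.2.1 y y.2.2.2] at hy
  exact hx.symm.trans hy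

/-- nodes `≤ N`, ordered by ancestry -/
structure Node (par : ℕ → ℕ) (hpar : ∀ t, t ≠ 0 → par t < t) (N : ℕ) where
  val : ℕ
  le_N : val ≤ N

instance : PartialOrder (Node par hpar N) where
  le x y := Anc par x.val y.val
  le_refl x := Anc.refl _
  le_trans x y z h h' := Anc.trans h h'
  le_antisymm x y h h' := by
    have h1 := Anc.antisymm hpar h h'
    cases x; cases y
    simp only at h1
    subst h1
    rfl

/-- the world of columns hung on a rooted tree -/
noncomputable def tworld (par : ℕ → ℕ) (hpar : ∀ t, t ≠ 0 → par t < t) (J : ℕ → Set ℕ) (N T : ℕ)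
    (hJ : ∀ t, t ≠ 0 → t ≤ N → ∃ a ∈ J t, a ≤ T) :
    TWorld (GV par hpar J N T) (Node par hpar N) where
  G := GG par hpar J N T
  u z := (z.1.2 : ℤ)
  idx z := ⟨z.1.1, z.2.1⟩
  L i := {z | col par hpar J i.val z.1.2 = z.1.1}
  conn := gg_conn hJ
  unit x y h := by
    rcases h.1 with h | h
    · rw [← h]; push_cast; simp
    · rw [← h]; push_cast; simp
  mem_L p := p.2.2.2
  L_low i z hz := by
    have h1 : col par hpar J i.val z.1.2 = z.1.1 := hz
    show Anc par z.1.1 i.val
    rw [← h1]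
    exact col_anc _ _
  L_path i a ha b hb hab := by
    have hab' : a.1.2 ≤ b.1.2 := by exact_mod_cast hab
    obtain ⟨q, h1, -⟩ := line_walk i.le_N a b ha hb hab'
    exact ⟨q, by rw [h1]; omega⟩
  L_level i x := ⟨rep par hpar J i.val x.1.2 i.le_N x.2.2.1, rfl, rfl⟩
  leave i a b hb ha q := by
    obtain ⟨z, hz, -, h⟩ := enter q hb ha
    exact ⟨z, hz, h⟩
  meet a b := by
    obtain ⟨i, h1, h2, h3⟩ := exists_meet a b
    exact ⟨⟨i, (h1.le hpar).trans a.2.1⟩, h1, h2, h3⟩

end Vale.Agent.P235.STO.H526
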